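import Vale.Agent.P217.Defs
import Mathlib.Analysis.Normed.Field.Basic
import Mathlib.Analysis.Normed.Ring.Ultra
import Mathlib.Analysis.SpecificLimits.Basic
import Mathlib.Topology.Algebra.InfiniteSum.Nonarchimedean
import Mathlib.Topology.Algebra.InfiniteSum.Ring

/-!
# P217: evaluation of integral series in the open unit polydisc
-/

noncomputable section

namespace Vale.Agent.P217.Eval

open MvPowerSeries Finset Filter Topology

variable {C : Type*} [NormedField C] {σ τ : Type*}

/-! ### degrees and monomials -/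

lemma deg_zero : deg (0 : σ →₀ ℕ) = 0 := Finsupp.sum_zero_index

lemma deg_add (d e : σ →₀ ℕ) : deg (d + e) = deg d + deg e :=
  Finsupp.sum_add_index' (fun _ => rfl) fun _ _ _ => rfl

lemma deg_single (i : σ) (k : ℕ) : deg (Finsupp.single i k) = k :=
  Finsupp.sum_single_index rfl

lemma deg_eq_zero {d : σ →₀ ℕ} (h : deg d = 0) : d = 0 := by
  ext i
  by_contra hi
  exact hi (Finset.sum_eq_zero_iff.1 h i (Finsupp.mem_support_iff.2 hi))

lemma exists_single_add {d : σ →₀ ℕ} {m : ℕ} (h : deg d = m + 1) :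
    ∃ i d', d = Finsupp.single i 1 + d' ∧ deg d' = m := by
  obtain ⟨i, hi⟩ : ∃ i, d i ≠ 0 := by
    by_contra hc
    push Not at hc
    rw [show d = 0 from Finsupp.ext hc, deg_zero] at h
    omega
  have hle : Finsupp.single i 1 ≤ d :=
    Finsupp.single_le_iff.2 (Nat.one_le_iff_ne_zero.2 hi)
  refine ⟨i, d - Finsupp.single i 1, (add_tsub_cancel_of_le hle).symm, ?_⟩
  have := congrArg deg (add_tsub_cancel_of_le hle)
  rw [deg_add, deg_single, h] at this
  omega

lemma deg_induction {P : (σ →₀ ℕ) → Prop} (h0 : P 0)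
    (hs : ∀ i d, P d → P (Finsupp.single i 1 + d)) (d : σ →₀ ℕ) : P d := by
  generalize hm : deg d = m
  induction m generalizing d with
  | zero => rw [deg_eq_zero hm]; exact h0
  | succ m ih =>
    obtain ⟨i, d', rfl, hd'⟩ := exists_single_add hm
    exact hs i d' (ih d' hd')

lemma finite_deg_lt [Finite σ] (N : ℕ) : {d : σ →₀ ℕ | deg d < N}.Finite :=
  Finsupp.finite_of_degree_lt N

lemma mon_zero (x : σ → C) : mon x (0 : σ →₀ ℕ) = 1 := Finsupp.prod_zero_index

lemma mon_add (x : σ → C) (d e : σ →₀ ℕ) : mon x (d + e) = mon x d * mon x e :=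
  Finsupp.prod_add_index' (fun _ => pow_zero _) fun _ _ _ => pow_add _ _ _

lemma mon_single (x : σ → C) (i : σ) (k : ℕ) : mon x (Finsupp.single i k) = x i ^ k :=
  Finsupp.prod_single_index (pow_zero _)

lemma mon_single_add (x : σ → C) (i : σ) (d : σ →₀ ℕ) :
    mon x (Finsupp.single i 1 + d) = x i * mon x d := by
  rw [mon_add, mon_single, pow_one]

lemma norm_mon_le {x : σ → C} {r : ℝ} (h : ∀ i, ‖x i‖ ≤ r) (d : σ →₀ ℕ) :
    ‖mon x d‖ ≤ r ^ deg d := by
  induction d using deg_induction with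
  | h0 => simp [mon_zero, deg_zero]
  | hs i d ih =>
    rw [mon_single_add, norm_mul, deg_add, deg_single, pow_add, pow_one]
    exact mul_le_mul (h i) ih (norm_nonneg _) ((norm_nonneg _).trans (h i))

lemma exists_radius [Fintype σ] {x : σ → C} (hx : Small x) :
    ∃ r : ℝ, 0 ≤ r ∧ r < 1 ∧ ∀ i, ‖x i‖ ≤ r := by
  refine ⟨(Finset.univ.sup fun i => ‖x i‖₊ : NNReal), NNReal.coe_nonneg _, ?_, fun i => ?_⟩
  · rw [← NNReal.coe_one, NNReal.coe_lt_coe, Finset.sup_lt_iff (by exact zero_lt_one)]
    exact fun i _ => hx i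
  · exact NNReal.coe_le_coe.2 (Finset.le_sup (f := fun i => ‖x i‖₊) (Finset.mem_univ i))

/-! ### integral series -/

lemma intSer_C {c : C} (hc : ‖c‖ ≤ 1) : IntSer (MvPowerSeries.C c : MvPowerSeries σ C) := by
  intro d
  classical
  rw [coeff_C]
  split_ifs <;> simp [hc]

lemma intSer_zero : IntSer (0 : MvPowerSeries σ C) := fun d => by simp

lemma intSer_one : IntSer (1 : MvPowerSeries σ C) := by
  have h := intSer_C (σ := σ) (c := (1 : C)) norm_one.le
  rwa [map_one] at h

lemma intSer_X (i : σ) : IntSer (MvPowerSeries.X i : MvPowerSeries σ C) := by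
  intro d
  classical
  rw [coeff_X]
  split_ifs <;> simp

variable [IsUltrametricDist C]

lemma norm_sub_le_max' (a b : C) : ‖a - b‖ ≤ max ‖a‖ ‖b‖ := by
  simpa [sub_eq_add_neg] using IsUltrametricDist.norm_add_le_max a (-b)

lemma intSer_add {f g : MvPowerSeries σ C} (hf : IntSer f) (hg : IntSer g) : IntSer (f + g) :=
  fun d => by
    rw [map_add]; exact (IsUltrametricDist.norm_add_le_max _ _).trans (max_le (hf d) (hg d))

lemma intSer_sub {f g : MvPowerSeries σ C} (hf : IntSer f) (hg : IntSer g) : IntSer (f - g) :=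
  fun d => by rw [map_sub]; exact (norm_sub_le_max' _ _).trans (max_le (hf d) (hg d))

lemma intSer_mul {f g : MvPowerSeries σ C} (hf : IntSer f) (hg : IntSer g) : IntSer (f * g) :=
  fun d => by
    classical
    rw [coeff_mul]
    refine IsUltrametricDist.norm_sum_le_of_forall_le_of_nonneg zero_le_one fun a _ => ?_
    rw [norm_mul]
    exact mul_le_one₀ (hf _) (norm_nonneg _) (hg _)

lemma norm_tsum_le {ι : Type*} {f : ι → C} {c : ℝ} (hc : 0 ≤ c) (h : ∀ i, ‖f i‖ ≤ c) :
    ‖∑' i, f i‖ ≤ c := by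
  by_cases hf : Summable f
  · exact le_of_tendsto' hf.hasSum.norm fun s =>
      IsUltrametricDist.norm_sum_le_of_forall_le_of_nonneg hc fun i _ => h i
  · rw [tsum_eq_zero_of_not_summable hf, norm_zero]; exact hc

lemma intSer_pderiv (i : σ) {f : MvPowerSeries σ C} (hf : IntSer f) :
    IntSer (MvPowerSeries.pderiv C i f) := fun d => by
  rw [coeff_pderiv, norm_mul]
  exact mul_le_one₀ (hf _) (norm_nonneg _)
    (by exact_mod_cast IsUltrametricDist.norm_natCast_le_one C (d i + 1))

variable [CompleteSpace C]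

lemma summable_of_bound {ι : Type*} {f : ι → C} (w : ι → ℕ) (hw : ∀ N, {i | w i < N}.Finite)
    {B r : ℝ} (hr0 : 0 ≤ r) (hr1 : r < 1) (h : ∀ i, ‖f i‖ ≤ B * r ^ w i) : Summable f := by
  have hlim : Tendsto (fun m : ℕ => B * r ^ m) atTop (𝓝 0) := by
    simpa using (tendsto_pow_atTop_nhds_zero_of_lt_one hr0 hr1).const_mul B
  have hwt : Tendsto w cofinite atTop := tendsto_atTop.2 fun N => by
    rw [eventually_cofinite]
    exact (hw N).subset fun i (hi : ¬ N ≤ w i) => not_le.1 hi
  exact NonarchimedeanAddGroup.summable_of_tendsto_cofinite_zero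
    (squeeze_zero_norm h (hlim.comp hwt))

variable [Fintype σ]

lemma summable_ev {f : MvPowerSeries σ C} {x : σ → C} (hf : IntSer f) (hx : Small x) :
    Summable fun d => coeff d f * mon x d := by
  obtain ⟨r, hr0, hr1, hr⟩ := exists_radius hx
  refine summable_of_bound deg finite_deg_lt hr0 hr1 (B := 1) fun d => ?_
  rw [norm_mul]
  exact mul_le_mul (hf d) (norm_mon_le hr d) (norm_nonneg _) zero_le_one

omit [Fintype σ] [IsUltrametricDist C] [CompleteSpace C] in
lemma norm_mon_le_one {x : σ → C} (hx : Small x) (d : σ →₀ ℕ) : ‖mon x d‖ ≤ 1 :=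
  (norm_mon_le (fun i => (hx i).le) d).trans (one_pow _).le

omit [Fintype σ] [CompleteSpace C] in
lemma norm_ev_le_one {f : MvPowerSeries σ C} {x : σ → C} (hf : IntSer f) (hx : Small x) :
    ‖ev x f‖ ≤ 1 :=
  norm_tsum_le zero_le_one fun d => by
    rw [norm_mul]; exact mul_le_one₀ (hf d) (norm_nonneg _) (norm_mon_le_one hx d)

omit [Fintype σ] [CompleteSpace C] in
lemma norm_ev_le {f : MvPowerSeries σ C} {x : σ → C} (hf : IntSer f) (hx : Small x)
    (h0 : constantCoeff f = 0) {r : ℝ} (hr0 : 0 ≤ r) (hr : ∀ i, ‖x i‖ ≤ r) : ‖ev x f‖ ≤ r := by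
  refine norm_tsum_le hr0 fun d => ?_
  rcases Nat.eq_zero_or_pos (deg d) with hd | hd
  · rw [deg_eq_zero hd, coeff_zero_eq_constantCoeff_apply, h0, zero_mul, norm_zero]; exact hr0
  · obtain ⟨i, d', rfl, -⟩ := exists_single_add (m := deg d - 1) (d := d) (by omega)
    rw [mon_single_add, norm_mul, norm_mul]
    calc _ ≤ 1 * (r * 1) := by
          refine mul_le_mul (hf _) ?_ (by positivity) zero_le_one
          exact mul_le_mul (hr i) (norm_mon_le_one hx d') (norm_nonneg _) hr0
      _ = r := by ring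

lemma ev_add {f g : MvPowerSeries σ C} {x : σ → C} (hf : IntSer f) (hg : IntSer g)
    (hx : Small x) : ev x (f + g) = ev x f + ev x g := by
  unfold ev
  rw [← (summable_ev hf hx).tsum_add (summable_ev hg hx)]
  exact tsum_congr fun d => by rw [map_add, add_mul]

lemma ev_sub {f g : MvPowerSeries σ C} {x : σ → C} (hf : IntSer f) (hg : IntSer g)
    (hx : Small x) : ev x (f - g) = ev x f - ev x g := by
  unfold ev
  rw [← (summable_ev hf hx).tsum_sub (summable_ev hg hx)]
  exact tsum_congr fun d => by rw [map_sub, sub_mul]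

lemma ev_mul {f g : MvPowerSeries σ C} {x : σ → C} (hf : IntSer f) (hg : IntSer g)
    (hx : Small x) : ev x (f * g) = ev x f * ev x g := by
  classical
  obtain ⟨r, hr0, hr1, hr⟩ := exists_radius hx
  unfold ev
  rw [(summable_ev hf hx).tsum_mul_tsum_eq_tsum_sum_antidiagonal (summable_ev hg hx) ?_]
  · refine tsum_congr fun n => ?_
    rw [coeff_mul, Finset.sum_mul]
    refine Finset.sum_congr rfl fun a ha => ?_
    rw [← Finset.mem_antidiagonal.1 ha, mon_add]
    ring
  · refine summable_of_bound (fun a : (σ →₀ ℕ) × (σ →₀ ℕ) => deg a.1 + deg a.2) (fun N => ?_)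
      hr0 hr1 (B := 1) fun a => ?_
    · exact ((finite_deg_lt N).prod (finite_deg_lt N)).subset fun a (ha : _ < N) =>
        ⟨show deg a.1 < N by omega, show deg a.2 < N by omega⟩
    · rw [norm_mul, norm_mul, norm_mul, one_mul, pow_add]
      exact mul_le_mul
        (((mul_le_mul (hf _) (norm_mon_le hr _) (norm_nonneg _) zero_le_one)).trans_eq (one_mul _))
        (((mul_le_mul (hg _) (norm_mon_le hr _) (norm_nonneg _) zero_le_one)).trans_eq (one_mul _))
        (by positivity) (by positivity)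

omit [IsUltrametricDist C] [CompleteSpace C] [Fintype σ] in
lemma ev_C (x : σ → C) (c : C) : ev x (MvPowerSeries.C c) = c := by
  unfold ev
  classical
  rw [tsum_eq_single 0, coeff_zero_C, mon_zero, mul_one]
  intro d hd
  rw [coeff_C_of_ne_zero hd, zero_mul]

omit [IsUltrametricDist C] [CompleteSpace C] [Fintype σ] in
lemma ev_X (x : σ → C) (i : σ) : ev x (MvPowerSeries.X i) = x i := by
  unfold ev
  classical
  rw [tsum_eq_single (Finsupp.single i 1), coeff_index_single_self_X, mon_single, pow_one, one_mul]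
  intro d hd
  rw [coeff_X, if_neg hd, zero_mul]

omit [IsUltrametricDist C] [CompleteSpace C] [Fintype σ] in
lemma ev_zero (f : MvPowerSeries σ C) : ev (fun _ => (0 : C)) f = constantCoeff f := by
  unfold ev
  rw [tsum_eq_single 0, mon_zero, mul_one, coeff_zero_eq_constantCoeff_apply]
  intro d hd
  obtain ⟨i, d', rfl, -⟩ := exists_single_add (m := deg d - 1) (d := d) (by
    have : deg d ≠ 0 := fun h => hd (deg_eq_zero h)
    omega)
  rw [mon_single_add, zero_mul, mul_zero]

omit [CompleteSpace C] [Fintype σ] in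
lemma norm_mon_sub_le {x y : σ → C} {R r : ℝ} (hx : ∀ i, ‖x i‖ ≤ R) (hy : ∀ i, ‖y i‖ ≤ R)
    (hr0 : 0 ≤ r) (h : ∀ i, ‖x i - y i‖ ≤ r) :
    ∀ (m : ℕ) (d : σ →₀ ℕ), deg d = m + 1 → ‖mon x d - mon y d‖ ≤ R ^ m * r := by
  intro m
  induction m with
  | zero =>
    intro d hd
    obtain ⟨i, d', rfl, hd'⟩ := exists_single_add hd
    rw [deg_eq_zero hd', add_zero, mon_single, mon_single, pow_one, pow_one, pow_zero, one_mul]
    exact h i
  | succ m ih =>
    intro d hd
    obtain ⟨i, d', rfl, hd'⟩ := exists_single_add hd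
    have hR : 0 ≤ R := (norm_nonneg _).trans (hx i)
    rw [mon_single_add, mon_single_add, show x i * mon x d' - y i * mon y d'
      = x i * (mon x d' - mon y d') + (x i - y i) * mon y d' by ring]
    refine (IsUltrametricDist.norm_add_le_max _ _).trans (max_le ?_ ?_)
    · rw [norm_mul, pow_succ', mul_assoc]
      exact mul_le_mul (hx i) (ih d' hd') (norm_nonneg _) hR
    · rw [norm_mul, mul_comm _ r]
      refine mul_le_mul (h i) ?_ (norm_nonneg _) hr0
      rw [← hd']
      exact norm_mon_le hy d'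

lemma norm_ev_sub_le {f : MvPowerSeries σ C} {x y : σ → C} (hf : IntSer f) (hx : Small x)
    (hy : Small y) {r : ℝ} (hr0 : 0 ≤ r) (h : ∀ i, ‖x i - y i‖ ≤ r) :
    ‖ev x f - ev y f‖ ≤ r := by
  unfold ev
  rw [← (summable_ev hf hx).tsum_sub (summable_ev hf hy)]
  refine norm_tsum_le hr0 fun d => ?_
  rw [← mul_sub, norm_mul]
  refine (mul_le_of_le_one_left (norm_nonneg _) (hf d)).trans ?_
  rcases Nat.eq_zero_or_pos (deg d) with hd | hd
  · rw [deg_eq_zero hd, mon_zero, mon_zero, sub_self, norm_zero]; exact hr0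
  · refine (norm_mon_sub_le (R := 1) (fun i => (hx i).le) (fun i => (hy i).le) hr0 h
      (deg d - 1) d (by omega)).trans ?_
    simp

end Vale.Agent.P217.Eval
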