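import Vale.Agent.P217.Targets
import Vale.Agent.P217.Eval.Basic

/-!
# P217: formal fixed points
-/

noncomputable section

namespace Vale.Agent.P217.Eval

open MvPowerSeries Finset

variable {R : Type*} [CommRing R] {σ τ κ : Type*}

/-- No terms of degree below `m`. -/
def Van (m : ℕ) (f : MvPowerSeries κ R) : Prop := ∀ e, deg e < m → coeff e f = 0

lemma van_of_constantCoeff {f : MvPowerSeries κ R} (h : constantCoeff f = 0) : Van 1 f :=
  fun e he => by rw [deg_eq_zero (Nat.lt_one_iff.1 he), coeff_zero_eq_constantCoeff_apply, h]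

lemma van_mul {m k : ℕ} {f g : MvPowerSeries κ R} (hf : Van m f) (hg : Van k g) :
    Van (m + k) (f * g) := fun e he => by
  classical
  rw [coeff_mul]
  refine Finset.sum_eq_zero fun a ha => ?_
  have := congrArg deg (Finset.mem_antidiagonal.1 ha)
  rw [deg_add] at this
  by_cases h : deg a.1 < m
  · rw [hf _ h, zero_mul]
  · rw [hg a.2 (by omega), mul_zero]

lemma van_add {m : ℕ} {f g : MvPowerSeries κ R} (hf : Van m f) (hg : Van m g) : Van m (f + g) :=
  fun e he => by rw [map_add, hf e he, hg e he, add_zero]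

lemma van_mono {m k : ℕ} (h : k ≤ m) {f : MvPowerSeries κ R} (hf : Van m f) : Van k f :=
  fun e he => hf e (by omega)

/-- A monomial in a family of series. -/
def gp (g : σ → MvPowerSeries κ R) (d : σ →₀ ℕ) : MvPowerSeries κ R := d.prod fun i k => g i ^ k

lemma gp_zero (g : σ → MvPowerSeries κ R) : gp g 0 = 1 := Finsupp.prod_zero_index

lemma gp_single_add (g : σ → MvPowerSeries κ R) (i : σ) (d : σ →₀ ℕ) :
    gp g (Finsupp.single i 1 + d) = g i * gp g d := by
  unfold gp
  rw [Finsupp.prod_add_index' (fun _ => pow_zero _) (fun _ _ _ => pow_add _ _ _),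
    Finsupp.prod_single_index (h := fun i k => g i ^ k) (pow_zero _), pow_one]

lemma van_gp {g : σ → MvPowerSeries κ R} (hg : ∀ i, constantCoeff (g i) = 0) (d : σ →₀ ℕ) :
    Van (deg d) (gp g d) := by
  induction d using deg_induction with
  | h0 => intro e he; rw [deg_zero] at he; omega
  | hs i d ih =>
    rw [gp_single_add, deg_add, deg_single]
    exact van_mul (van_of_constantCoeff (hg i)) ih

lemma van_gp_sub {g g' : σ → MvPowerSeries κ R} (hg : ∀ i, constantCoeff (g i) = 0)
    (hg' : ∀ i, constantCoeff (g' i) = 0) {m : ℕ} (h : ∀ i, Van m (g i - g' i)) :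
    ∀ (k : ℕ) (d : σ →₀ ℕ), deg d = k + 1 → Van (m + k) (gp g d - gp g' d) := by
  intro k
  induction k with
  | zero =>
    intro d hd
    obtain ⟨i, d', rfl, hd'⟩ := exists_single_add hd
    rw [deg_eq_zero hd', gp_single_add, gp_single_add, gp_zero, gp_zero, mul_one, mul_one]
    exact h i
  | succ k ih =>
    intro d hd
    obtain ⟨i, d', rfl, hd'⟩ := exists_single_add hd
    rw [gp_single_add, gp_single_add, show g i * gp g d' - g' i * gp g' d'
      = g i * (gp g d' - gp g' d') + (g i - g' i) * gp g' d' by ring]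
    refine van_add (van_mono (by omega) (van_mul (van_of_constantCoeff (hg i)) (ih d' hd'))) ?_
    have := van_mul (h i) (van_gp hg' d')
    rwa [hd'] at this

lemma coeff_gp_mem {g : σ → MvPowerSeries κ R} (S : Subring R) (hg : ∀ i e, coeff e (g i) ∈ S)
    (d : σ →₀ ℕ) : ∀ e, coeff e (gp g d) ∈ S := by
  classical
  induction d using deg_induction with
  | h0 =>
    intro e
    rw [gp_zero, coeff_one]
    split_ifs
    · exact S.one_mem
    · exact S.zero_mem
  | hs i d ih =>
    intro e
    rw [gp_single_add, coeff_mul]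
    exact S.sum_mem fun a _ => S.mul_mem (hg i _) (ih _)

/-- The substitution defining a fixed point. -/
def step (Φ : τ → MvPowerSeries (σ ⊕ τ) R) (X : τ → MvPowerSeries σ R) :
    τ → MvPowerSeries σ R :=
  fun j => (Φ j).subst (Sum.elim (fun i : σ => (MvPowerSeries.X i : MvPowerSeries σ R)) X)

variable [Fintype σ] [Fintype τ]

omit [Fintype σ] [Fintype τ] in
lemma const_elim {X : τ → MvPowerSeries σ R} (hX : ∀ j, constantCoeff (X j) = 0) :
    ∀ i, constantCoeff (Sum.elim (fun i : σ => (MvPowerSeries.X i : MvPowerSeries σ R)) X i) = 0 :=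
  Sum.rec (fun i => constantCoeff_X i) hX

lemma coeff_step (Φ : τ → MvPowerSeries (σ ⊕ τ) R) {X : τ → MvPowerSeries σ R}
    (hX : ∀ j, constantCoeff (X j) = 0) (j : τ) (e : σ →₀ ℕ) :
    coeff e (step Φ X j) = finsum fun d => coeff d (Φ j) *
      coeff e (gp (Sum.elim (fun i : σ => (MvPowerSeries.X i : MvPowerSeries σ R)) X) d) :=
  coeff_subst (hasSubst_of_constantCoeff_zero (const_elim hX)) _ _

variable {Φ : τ → MvPowerSeries (σ ⊕ τ) R}

lemma const_step (hΦ0 : ∀ j, constantCoeff (Φ j) = 0) {X : τ → MvPowerSeries σ R}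
    (hX : ∀ j, constantCoeff (X j) = 0) (j : τ) : constantCoeff (step Φ X j) = 0 :=
  constantCoeff_subst_eq_zero (hasSubst_of_constantCoeff_zero (const_elim hX)) (const_elim hX)
    (hΦ0 j)

lemma step_agree (hΦ0 : ∀ j, constantCoeff (Φ j) = 0)
    (hΦ1 : ∀ j i, coeff (Finsupp.single (Sum.inr i) 1) (Φ j) = 0)
    {X Y : τ → MvPowerSeries σ R} (hX : ∀ j, constantCoeff (X j) = 0)
    (hY : ∀ j, constantCoeff (Y j) = 0) {m : ℕ} (h : ∀ j, Van m (X j - Y j)) (j : τ) :
    Van (m + 1) (step Φ X j - step Φ Y j) := by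
  intro e he
  rcases Nat.eq_zero_or_pos (deg e) with h0 | h1
  · rw [deg_eq_zero h0, coeff_zero_eq_constantCoeff_apply, map_sub, const_step hΦ0 hX,
      const_step hΦ0 hY, sub_self]
  rw [map_sub, coeff_step Φ hX, coeff_step Φ hY, sub_eq_zero]
  refine finsum_congr fun d => ?_
  have hd : ∀ k, Van m (Sum.elim (fun i : σ => (MvPowerSeries.X i : MvPowerSeries σ R)) X k -
      Sum.elim (fun i : σ => (MvPowerSeries.X i : MvPowerSeries σ R)) Y k) := by
    rintro (k | k)
    · intro e' _; simp
    · exact h k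
  by_cases h2 : 2 ≤ deg d
  · congr 1
    rw [← sub_eq_zero, ← map_sub]
    exact van_gp_sub (const_elim hX) (const_elim hY) hd (deg d - 1) d (by omega) e (by omega)
  · rcases Nat.eq_zero_or_pos (deg d) with h0 | hd1
    · rw [deg_eq_zero h0, gp_zero, gp_zero]
    · obtain ⟨k, d', rfl, hd'⟩ := exists_single_add (m := 0) (d := d) (by omega)
      rw [deg_eq_zero hd', add_zero]
      rcases k with k | k
      · rw [← add_zero (Finsupp.single (Sum.inl k) 1), gp_single_add, gp_single_add, gp_zero,
          gp_zero]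
        rfl
      · rw [hΦ1, zero_mul, zero_mul]

theorem fixed_eq (hΦ0 : ∀ j, constantCoeff (Φ j) = 0)
    (hΦ1 : ∀ j i, coeff (Finsupp.single (Sum.inr i) 1) (Φ j) = 0)
    {X Y : τ → MvPowerSeries σ R} (hX : ∀ j, constantCoeff (X j) = 0)
    (hY : ∀ j, constantCoeff (Y j) = 0) (hXf : ∀ j, step Φ X j = X j)
    (hYf : ∀ j, step Φ Y j = Y j) : Y = X := by
  have key : ∀ m j, Van m (Y j - X j) := by
    intro m
    induction m with
    | zero => exact fun j e he => absurd he (Nat.not_lt_zero _)
    | succ m ih => intro j; rw [← hXf j, ← hYf j]; exact step_agree hΦ0 hΦ1 hY hX ih j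
  funext j
  ext e
  have := key (deg e + 1) j e (Nat.lt_succ_self _)
  rwa [map_sub, sub_eq_zero] at this

theorem exists_fixed (hΦ0 : ∀ j, constantCoeff (Φ j) = 0)
    (hΦ1 : ∀ j i, coeff (Finsupp.single (Sum.inr i) 1) (Φ j) = 0) :
    ∃ X : τ → MvPowerSeries σ R, (∀ j, constantCoeff (X j) = 0) ∧ (∀ j, step Φ X j = X j) ∧
      ∀ S : Subring R, (∀ j d, coeff d (Φ j) ∈ S) → ∀ j d, coeff d (X j) ∈ S := by
  let it : ℕ → τ → MvPowerSeries σ R := fun k => (step Φ)^[k] fun _ => 0
  have hsucc : ∀ k, it (k + 1) = step Φ (it k) := fun k => Function.iterate_succ_apply' _ _ _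
  have hit0 : ∀ k j, constantCoeff (it k j) = 0 := by
    intro k
    induction k with
    | zero => intro j; simp [it]
    | succ k ih => intro j; rw [hsucc]; exact const_step hΦ0 ih j
  have hagree : ∀ k j, Van k (it (k + 1) j - it k j) := by
    intro k
    induction k with
    | zero => exact fun j e he => absurd he (Nat.not_lt_zero _)
    | succ k ih =>
      intro j
      rw [hsucc (k + 1)]
      nth_rewrite 2 [hsucc k]
      exact step_agree hΦ0 hΦ1 (hit0 _) (hit0 _) ih j
  let X : τ → MvPowerSeries σ R := fun j e => coeff e (it (deg e + 1) j)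
  have hcoef : ∀ j e, coeff e (X j) = coeff e (it (deg e + 1) j) := fun j e => rfl
  have hXit : ∀ k j, Van k (X j - it k j) := by
    intro k j e he
    rw [map_sub, hcoef, sub_eq_zero]
    obtain ⟨t, rfl⟩ := Nat.exists_eq_add_of_le (Nat.succ_le_of_lt he)
    clear he
    induction t with
    | zero => rfl
    | succ t ih =>
      rw [ih]
      have := hagree (deg e + 1 + t) j e (by omega)
      rw [map_sub, sub_eq_zero] at this
      exact this.symm
  have hX0 : ∀ j, constantCoeff (X j) = 0 := fun j => by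
    rw [← coeff_zero_eq_constantCoeff_apply, hcoef, coeff_zero_eq_constantCoeff_apply, hit0]
  refine ⟨X, hX0, fun j => ?_, fun S hS j d => ?_⟩
  · ext e
    have h1 := step_agree hΦ0 hΦ1 hX0 (hit0 _) (hXit (deg e)) j e (Nat.lt_succ_self _)
    have h2 := hXit (deg e + 1) j e (Nat.lt_succ_self _)
    rw [map_sub, sub_eq_zero] at h1 h2
    rw [h1, h2, hsucc]
  · have hmem : ∀ k j e, coeff e (it k j) ∈ S := by
      intro k
      induction k with
      | zero => intro j e; simp [it]
      | succ k ih =>
        intro j e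
        rw [hsucc, coeff_step Φ (hit0 k)]
        refine finsum_induction (· ∈ S) S.zero_mem (fun _ _ => S.add_mem) fun a =>
          S.mul_mem (hS j a) (coeff_gp_mem S ?_ a e)
        rintro (i | i) e'
        · classical
          simp only [Sum.elim_inl, coeff_X]
          split_ifs
          · exact S.one_mem
          · exact S.zero_mem
        · exact ih i e'
    exact hmem _ j d

end Vale.Agent.P217.Eval
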