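import Vale.Agent.P217.Eval.Subst
import Mathlib.RingTheory.PowerSeries.Trunc
import Mathlib.Algebra.Polynomial.Splits
import Mathlib.Algebra.Order.Ring.Pow

/-!
# P217: roots of series in one variable in the open unit disc
-/

noncomputable section

namespace Vale.Agent.P217.Eval

open Finset Filter Topology

variable {C : Type*} [NormedField C]

lemma finsupp_unit (d : Unit →₀ ℕ) : d = Finsupp.single () (d ()) := by
  ext; simp

lemma ev1_eq_tsum (z : C) (f : PowerSeries C) :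
    ev1 z f = ∑' n, PowerSeries.coeff n f * z ^ n := by
  unfold ev1 ev
  rw [← Function.Injective.tsum_eq (Finsupp.single_injective ())
    fun d _ => ⟨d (), (finsupp_unit d).symm⟩]
  exact tsum_congr fun n => by rw [mon_single]; rfl

lemma intSer_iff {f : PowerSeries C} : IntSer f ↔ ∀ n, ‖PowerSeries.coeff n f‖ ≤ 1 := by
  refine ⟨fun h n => h (Finsupp.single () n), fun h d => ?_⟩
  rw [finsupp_unit d]; exact h (d ())

lemma intSer_coeff {f : PowerSeries C} (h : IntSer f) (n : ℕ) : ‖PowerSeries.coeff n f‖ ≤ 1 :=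
  intSer_iff.1 h n

lemma small_const {z : C} (hz : ‖z‖ < 1) : Small (fun _ : Unit => z) := fun _ => hz

/-- `∑_i a_(m+i) z^i`. -/
def tail (z : C) (f : PowerSeries C) (m : ℕ) : C := ∑' i, PowerSeries.coeff (m + i) f * z ^ i

variable [IsUltrametricDist C] [CompleteSpace C]

lemma ev1_mul {f g : PowerSeries C} {z : C} (hf : IntSer f) (hg : IntSer g) (hz : ‖z‖ < 1) :
    ev1 z (f * g) = ev1 z f * ev1 z g := ev_mul hf hg (small_const hz)

lemma summable_tail {f : PowerSeries C} (hf : IntSer f) {z : C} (hz : ‖z‖ < 1) (m : ℕ) :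
    Summable fun i => PowerSeries.coeff (m + i) f * z ^ i := by
  refine summable_of_bound id (fun N => Set.finite_lt_nat N) (norm_nonneg z) hz (B := 1) fun i => ?_
  rw [norm_mul, norm_pow, id]
  exact mul_le_mul_of_nonneg_right (intSer_coeff hf _) (by positivity)

lemma tail_succ {f : PowerSeries C} (hf : IntSer f) {z : C} (hz : ‖z‖ < 1) (m : ℕ) :
    tail z f m = PowerSeries.coeff m f + z * tail z f (m + 1) := by
  unfold tail
  rw [(summable_tail hf hz m).tsum_eq_zero_add, pow_zero, mul_one, add_zero, ← tsum_mul_left]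
  congr 1
  refine tsum_congr fun i => ?_
  rw [show m + (i + 1) = m + 1 + i by omega, pow_succ]
  ring

omit [IsUltrametricDist C] [CompleteSpace C] in
lemma tail_zero (z : C) (f : PowerSeries C) : tail z f 0 = ev1 z f := by
  simp [tail, ev1_eq_tsum]

omit [CompleteSpace C] in
lemma norm_tail_le {f : PowerSeries C} (hf : IntSer f) {z : C} (hz : ‖z‖ < 1) (m : ℕ) :
    ‖tail z f m‖ ≤ 1 :=
  norm_tsum_le zero_le_one fun i => by
    rw [norm_mul, norm_pow]
    exact mul_le_one₀ (intSer_coeff hf _) (by positivity) (pow_le_one₀ (norm_nonneg z) hz.le)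

omit [IsUltrametricDist C] [CompleteSpace C] in
lemma norm_mul_lt {a b : C} (ha : ‖a‖ < 1) (hb : ‖b‖ ≤ 1) : ‖a * b‖ < 1 := by
  rw [norm_mul]; exact (mul_le_of_le_one_right (norm_nonneg a) hb).trans_lt ha

omit [CompleteSpace C] in
lemma norm_add_eq_one {a b : C} (ha : ‖a‖ = 1) (hb : ‖b‖ < 1) : ‖a + b‖ = 1 := by
  rw [IsUltrametricDist.norm_add_eq_max_of_norm_ne_norm (by rw [ha]; exact hb.ne'), ha,
    max_eq_left hb.le]

/-- Splitting off a root. -/
lemma exists_quot {f : PowerSeries C} {P : ℕ} (hf : IntSer f)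
    (hlow : ∀ m < P + 1, ‖PowerSeries.coeff m f‖ < 1) (hP : ‖PowerSeries.coeff (P + 1) f‖ = 1)
    {z₀ : C} (hz₀ : ‖z₀‖ < 1) (h0 : ev1 z₀ f = 0) :
    ∃ g : PowerSeries C, IntSer g ∧ (∀ m < P, ‖PowerSeries.coeff m g‖ < 1) ∧
      ‖PowerSeries.coeff P g‖ = 1 ∧ f = (PowerSeries.X - PowerSeries.C z₀) * g := by
  refine ⟨PowerSeries.mk fun m => tail z₀ f (m + 1), intSer_iff.2 fun n => ?_, fun m hm => ?_, ?_,
    ?_⟩
  · rw [PowerSeries.coeff_mk]; exact norm_tail_le hf hz₀ _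
  · rw [PowerSeries.coeff_mk, tail_succ hf hz₀]
    exact (IsUltrametricDist.norm_add_le_max _ _).trans_lt
      (max_lt (hlow _ (by omega)) (norm_mul_lt hz₀ (norm_tail_le hf hz₀ _)))
  · rw [PowerSeries.coeff_mk, tail_succ hf hz₀]
    exact norm_add_eq_one hP (norm_mul_lt hz₀ (norm_tail_le hf hz₀ _))
  · ext n
    rw [sub_mul, map_sub, PowerSeries.coeff_C_mul]
    rcases n with - | n
    · rw [PowerSeries.coeff_zero_X_mul, PowerSeries.coeff_mk]
      have := tail_succ hf hz₀ 0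
      rw [tail_zero, h0] at this
      linear_combination -this
    · rw [PowerSeries.coeff_succ_X_mul, PowerSeries.coeff_mk, PowerSeries.coeff_mk]
      linear_combination -(tail_succ hf hz₀ (n + 1))

omit [CompleteSpace C] in
lemma intSer_linear {z₀ : C} (hz₀ : ‖z₀‖ < 1) :
    IntSer (PowerSeries.X - PowerSeries.C z₀ : PowerSeries C) :=
  intSer_sub (intSer_X ()) (intSer_C hz₀.le)

lemma ev1_linear {z₀ z : C} (hz₀ : ‖z₀‖ < 1) (hz : ‖z‖ < 1) :
    ev1 z (PowerSeries.X - PowerSeries.C z₀) = z - z₀ := by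
  refine (ev_sub (intSer_X ()) (intSer_C hz₀.le) (small_const hz)).trans ?_
  congr 1
  · exact ev_X _ ()
  · exact ev_C _ _

theorem card_roots_le : ∀ (P : ℕ) (f : PowerSeries C), IntSer f →
    (∀ m < P, ‖PowerSeries.coeff m f‖ < 1) → ‖PowerSeries.coeff P f‖ = 1 →
      ∀ s : Finset C, (∀ z ∈ s, ‖z‖ < 1 ∧ ev1 z f = 0) → s.card ≤ P := by
  classical
  intro P
  induction P with
  | zero =>
    intro f hf _ hP s hs
    rw [Nat.le_zero, Finset.card_eq_zero]
    by_contra hne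
    obtain ⟨z, hz⟩ := Finset.nonempty_iff_ne_empty.2 hne
    obtain ⟨hz1, hz0⟩ := hs z hz
    have h := tail_succ hf hz1 0
    rw [tail_zero, hz0] at h
    have := norm_add_eq_one hP (norm_mul_lt hz1 (norm_tail_le hf hz1 1))
    rw [← h, norm_zero] at this
    exact zero_ne_one this
  | succ P ih =>
    intro f hf hlow hP s hs
    rcases s.eq_empty_or_nonempty with rfl | ⟨z₀, hz₀⟩
    · simp
    obtain ⟨h1, h0⟩ := hs z₀ hz₀
    obtain ⟨g, hg, hglow, hgP, hfg⟩ := exists_quot hf hlow hP h1 h0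
    have := ih g hg hglow hgP (s.erase z₀) fun z hz => by
      obtain ⟨hne, hzs⟩ := Finset.mem_erase.1 hz
      obtain ⟨hz1, hz0⟩ := hs z hzs
      refine ⟨hz1, ?_⟩
      rw [hfg, ev1_mul (intSer_linear h1) hg hz1, ev1_linear h1 hz1, mul_eq_zero, sub_eq_zero] at hz0
      exact hz0.resolve_left hne
    rw [Finset.card_erase_of_mem hz₀] at this
    omega

/-! ### polynomials -/

open Polynomial in
omit [CompleteSpace C] in
lemma norm_coeff_prod_le (s : Multiset C) (hs : ∀ r ∈ s, 1 ≤ ‖r‖) :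
    1 ≤ ‖((s.map (Polynomial.X - Polynomial.C ·)).prod).coeff 0‖ ∧
      ∀ n, ‖((s.map (Polynomial.X - Polynomial.C ·)).prod).coeff n‖ ≤
        ‖((s.map (Polynomial.X - Polynomial.C ·)).prod).coeff 0‖ := by
  induction s using Multiset.induction with
  | empty =>
    refine ⟨by simp, fun n => ?_⟩
    rcases n with - | n <;> simp [Polynomial.coeff_one]
  | cons r s ih =>
    obtain ⟨h1, hM⟩ := ih fun a ha => hs a (Multiset.mem_cons_of_mem ha)
    have hr := hs r (Multiset.mem_cons_self r s)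
    rw [Multiset.map_cons, Multiset.prod_cons]
    set M := (s.map (Polynomial.X - Polynomial.C ·)).prod
    have h0 : ((Polynomial.X - Polynomial.C r) * M).coeff 0 = -(r * M.coeff 0) := by
      simp [sub_mul]
    rw [h0, norm_neg, norm_mul]
    refine ⟨one_le_mul_of_one_le_of_one_le hr h1, fun n => ?_⟩
    rcases n with - | n
    · rw [h0, norm_neg, norm_mul]
    · rw [sub_mul, Polynomial.coeff_sub, Polynomial.coeff_X_mul, Polynomial.coeff_C_mul]
      refine (norm_sub_le_max' _ _).trans (max_le ?_ ?_)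
      · exact (hM n).trans (le_mul_of_one_le_left (norm_nonneg _) hr)
      · rw [norm_mul]; exact mul_le_mul_of_nonneg_left (hM _) (norm_nonneg r)

omit [CompleteSpace C] in
lemma norm_eval_le_one {Q : Polynomial C} (hQ : ∀ m, ‖Q.coeff m‖ ≤ 1) {z : C} (hz : ‖z‖ ≤ 1) :
    ‖Q.eval z‖ ≤ 1 := by
  rw [Polynomial.eval_eq_sum_range]
  refine IsUltrametricDist.norm_sum_le_of_forall_le_of_nonneg zero_le_one fun i _ => ?_
  rw [norm_mul, norm_pow]
  exact mul_le_one₀ (hQ i) (by positivity) (pow_le_one₀ (norm_nonneg z) hz)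

omit [CompleteSpace C] in
lemma exists_root_disc [IsAlgClosed C] (Q : Polynomial C) {P : ℕ}
    (hlow : ∀ m ≤ P, ‖Q.coeff m‖ < 1) (hP : ‖Q.coeff (P + 1)‖ = 1) :
    ∃ r, ‖r‖ < 1 ∧ Q.eval r = 0 ∧
      Q = (Polynomial.X - Polynomial.C r) * (Q /ₘ (Polynomial.X - Polynomial.C r)) := by
  have hne : Q ≠ 0 := fun h => by simp [h] at hP
  by_contra hc
  push Not at hc
  have hbig : ∀ r ∈ Q.roots, 1 ≤ ‖r‖ := fun r hr => by
    by_contra hlt
    have hroot := (Polynomial.mem_roots hne).1 hr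
    exact hc r (not_le.1 hlt) hroot (Polynomial.mul_divByMonic_eq_iff_isRoot.2 hroot).symm
  obtain ⟨-, hM⟩ := norm_coeff_prod_le Q.roots hbig
  have heq := (IsAlgClosed.splits Q).eq_prod_roots
  have : ‖Q.coeff (P + 1)‖ ≤ ‖Q.coeff 0‖ := by
    rw [heq, Polynomial.coeff_C_mul, Polynomial.coeff_C_mul, norm_mul, norm_mul]
    exact mul_le_mul_of_nonneg_left (hM _) (norm_nonneg _)
  exact absurd (this.trans_lt (hlow 0 (Nat.zero_le _))) (by rw [hP]; exact lt_irrefl 1)

omit [CompleteSpace C] in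
lemma quot_coeff {Q : Polynomial C} {P : ℕ} (hint : ∀ m, ‖Q.coeff m‖ ≤ 1)
    (hlow : ∀ m ≤ P, ‖Q.coeff m‖ < 1) (hP : ‖Q.coeff (P + 1)‖ = 1) {r : C} (hr : ‖r‖ < 1) :
    (∀ m, ‖(Q /ₘ (Polynomial.X - Polynomial.C r)).coeff m‖ ≤ 1) ∧
      (∀ m < P, ‖(Q /ₘ (Polynomial.X - Polynomial.C r)).coeff m‖ < 1) ∧
      ‖(Q /ₘ (Polynomial.X - Polynomial.C r)).coeff P‖ = 1 := by
  set Q' := Q /ₘ (Polynomial.X - Polynomial.C r)
  have hrec : ∀ n, Q'.coeff n = Q.coeff (n + 1) + r * Q'.coeff (n + 1) :=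
    fun n => Polynomial.coeff_divByMonic_X_sub_C_rec Q r n
  have hall : ∀ m, ‖Q'.coeff m‖ ≤ 1 := by
    suffices ∀ j m, Q'.natDegree < m + j → ‖Q'.coeff m‖ ≤ 1 from
      fun m => this (Q'.natDegree + 1) m (by omega)
    intro j
    induction j with
    | zero =>
      intro m hm
      rw [Polynomial.coeff_eq_zero_of_natDegree_lt (by omega), norm_zero]
      exact zero_le_one
    | succ j ih =>
      intro m hm
      rw [hrec]
      exact (IsUltrametricDist.norm_add_le_max _ _).trans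
        (max_le (hint _) (norm_mul_lt hr (ih (m + 1) (by omega))).le)
  refine ⟨hall, fun m hm => ?_, ?_⟩
  · rw [hrec]
    exact (IsUltrametricDist.norm_add_le_max _ _).trans_lt
      (max_lt (hlow _ hm) (norm_mul_lt hr (hall _)))
  · rw [hrec]
    exact norm_add_eq_one hP (norm_mul_lt hr (hall _))

omit [CompleteSpace C] in
lemma exists_root_near [IsAlgClosed C] : ∀ (P : ℕ) (Q : Polynomial C), (∀ m, ‖Q.coeff m‖ ≤ 1) →
    (∀ m ≤ P, ‖Q.coeff m‖ < 1) → ‖Q.coeff (P + 1)‖ = 1 → ∀ z : C, ‖z‖ < 1 →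
      ∃ r, ‖r‖ < 1 ∧ Q.eval r = 0 ∧ ‖z - r‖ ^ (P + 1) ≤ ‖Q.eval z‖ := by
  intro P
  induction P with
  | zero =>
    intro Q hint hlow hP z hz
    obtain ⟨r, hr1, hr0, hQ⟩ : ∃ r, ‖r‖ < 1 ∧ Q.eval r = 0 ∧
        Q = (Polynomial.X - Polynomial.C r) * (Q /ₘ (Polynomial.X - Polynomial.C r)) := by
      exact exists_root_disc Q hlow hP
    obtain ⟨hint', hlow', hP'⟩ := quot_coeff hint hlow hP hr1
    refine ⟨r, hr1, hr0, le_of_eq ?_⟩
    set Q' := Q /ₘ (Polynomial.X - Polynomial.C r)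
    have h1 : ‖Q'.eval z‖ = 1 := by
      rw [← Polynomial.X_mul_divX_add Q', Polynomial.eval_add, Polynomial.eval_mul,
        Polynomial.eval_X, Polynomial.eval_C, add_comm]
      refine norm_add_eq_one hP' (norm_mul_lt hz (norm_eval_le_one (fun m => ?_) hz.le))
      rw [Polynomial.coeff_divX]; exact hint' _
    rw [hQ, Polynomial.eval_mul, norm_mul, h1, mul_one, Polynomial.eval_sub, Polynomial.eval_X,
      Polynomial.eval_C, zero_add, pow_one]
  | succ P ih =>
    intro Q hint hlow hP z hz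
    obtain ⟨r, hr1, hr0, hQ⟩ := exists_root_disc Q hlow hP
    obtain ⟨hint', hlow', hP'⟩ := quot_coeff hint hlow hP hr1
    obtain ⟨r', hr'1, hr'0, hr'⟩ := ih _ hint' (fun m hm => hlow' m (by omega)) hP' z hz
    have hev : Q.eval z = (z - r) * (Q /ₘ (Polynomial.X - Polynomial.C r)).eval z := by
      conv_lhs => rw [hQ]
      simp
    rw [hev, norm_mul]
    rcases le_total ‖z - r‖ ‖z - r'‖ with hle | hle
    · refine ⟨r, hr1, hr0, ?_⟩
      rw [pow_succ']
      exact mul_le_mul_of_nonneg_left ((pow_le_pow_left₀ (norm_nonneg _) hle _).trans hr')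
        (norm_nonneg _)
    · refine ⟨r', hr'1, ?_, ?_⟩
      · rw [hQ, Polynomial.eval_mul, hr'0, mul_zero]
      · rw [pow_succ']
        exact mul_le_mul hle hr' (by positivity) (norm_nonneg _)

/-! ### roots of series -/

omit [CompleteSpace C] in
/-- Roots in the open disc stay in a fixed smaller disc. -/
lemma pow_norm_le_of_root {Q : Polynomial C} {P : ℕ} {c : ℝ} (hc : 0 ≤ c)
    (hint : ∀ m, ‖Q.coeff m‖ ≤ 1) (hlow : ∀ m < P, ‖Q.coeff m‖ ≤ c) (hP : ‖Q.coeff P‖ = 1)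
    {r : C} (hr : ‖r‖ < 1) (h0 : Q.eval r = 0) : ‖r‖ ^ P ≤ c := by
  by_contra hlt
  push Not at hlt
  have hne : Q.coeff P ≠ 0 := by intro h; rw [h, norm_zero] at hP; exact zero_ne_one hP
  have hmem : P ∈ Finset.range (Q.natDegree + 1) :=
    Finset.mem_range.2 (Nat.lt_succ_of_le (Polynomial.le_natDegree_of_ne_zero hne))
  rw [Polynomial.eval_eq_sum_range, ← Finset.add_sum_erase _ _ hmem, add_eq_zero_iff_eq_neg] at h0
  have hrest : ‖∑ i ∈ (Finset.range (Q.natDegree + 1)).erase P, Q.coeff i * r ^ i‖ ≤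
      max c (‖r‖ ^ (P + 1)) := by
    refine IsUltrametricDist.norm_sum_le_of_forall_le_of_nonneg (hc.trans (le_max_left _ _))
      fun i hi => ?_
    rw [norm_mul, norm_pow]
    rcases lt_or_gt_of_ne (Finset.mem_erase.1 hi).1 with h | h
    · exact le_max_of_le_left ((mul_le_of_le_one_right (norm_nonneg _)
        (pow_le_one₀ (norm_nonneg r) hr.le)).trans (hlow i h))
    · exact le_max_of_le_right ((mul_le_of_le_one_left (by positivity) (hint i)).trans
        (pow_le_pow_of_le_one (norm_nonneg r) hr.le h))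
  have heq : ‖r‖ ^ P = ‖∑ i ∈ (Finset.range (Q.natDegree + 1)).erase P, Q.coeff i * r ^ i‖ := by
    rw [← norm_neg (∑ i ∈ (Finset.range (Q.natDegree + 1)).erase P, Q.coeff i * r ^ i), ← h0,
      norm_mul, hP, one_mul, norm_pow]
  have h1 : ‖r‖ ^ (P + 1) < ‖r‖ ^ P := by
    rw [pow_succ]
    exact mul_lt_of_lt_one_right (hc.trans_lt hlt) hr
  exact absurd (heq.le.trans hrest) (not_le.2 (max_lt hlt h1))

lemma exists_rho (P : ℕ) {c : ℝ} (hc0 : 0 ≤ c) (hc1 : c < 1) :
    ∃ ρ : ℝ, 0 ≤ ρ ∧ ρ < 1 ∧ c ≤ ρ ^ (P + 1) := by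
  have hP : (1 : ℝ) ≤ ((P + 1 : ℕ) : ℝ) := by exact_mod_cast Nat.succ_pos P
  set a : ℝ := (1 - c) / ((P + 1 : ℕ) : ℝ)
  have ha0 : 0 < a := div_pos (by linarith) (by linarith)
  have ha1 : a ≤ 1 := by rw [div_le_one (by linarith)]; linarith
  have hmul : ((P + 1 : ℕ) : ℝ) * a = 1 - c := mul_div_cancel₀ _ (by positivity)
  refine ⟨1 - a, by linarith, by linarith, ?_⟩
  have h := one_add_mul_le_pow (a := -a) (by linarith) (P + 1)
  have e : ((P + 1 : ℕ) : ℝ) * -a = -(1 - c) := by rw [← hmul]; ring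
  rw [e] at h
  rw [show (1 : ℝ) - a = 1 + -a by ring]
  linarith

omit [IsUltrametricDist C] [CompleteSpace C] in
lemma ev1_coe (Q : Polynomial C) (z : C) : ev1 z (Q : PowerSeries C) = Q.eval z := by
  rw [ev1_eq_tsum, tsum_eq_sum (s := Finset.range (Q.natDegree + 1)),
    Polynomial.eval_eq_sum_range]
  · exact Finset.sum_congr rfl fun n _ => by rw [Polynomial.coeff_coe]
  · intro n hn
    rw [Finset.mem_range] at hn
    rw [Polynomial.coeff_coe, Polynomial.coeff_eq_zero_of_natDegree_lt (by omega), zero_mul]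

theorem exists_root_series [IsAlgClosed C] (f : PowerSeries C) (P : ℕ) (hf : IntSer f)
    (hlow : ∀ m ≤ P, ‖PowerSeries.coeff m f‖ < 1) (hP : ‖PowerSeries.coeff (P + 1) f‖ = 1) :
    ∃ z, ‖z‖ < 1 ∧ ev1 z f = 0 := by
  obtain ⟨c, hc0, hc1, hc⟩ := exists_radius (x := fun m : Fin (P + 1) => PowerSeries.coeff (m : ℕ) f)
    fun m => hlow m (by omega)
  obtain ⟨ρ, hρ0, hρ1, hcρ⟩ := exists_rho P hc0 hc1
  obtain ⟨η, hη0, hη1, hρη⟩ := exists_rho P hρ0 hρ1
  let Q : ℕ → Polynomial C := fun N => PowerSeries.trunc (N + P + 2) f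
  have hQ : ∀ N m, (Q N).coeff m = if m < N + P + 2 then PowerSeries.coeff m f else 0 :=
    fun N m => PowerSeries.coeff_trunc _ _ _
  have hQint : ∀ N m, ‖(Q N).coeff m‖ ≤ 1 := fun N m => by
    rw [hQ]; split_ifs
    · exact intSer_coeff hf m
    · simp
  have hQlow : ∀ N, ∀ m ≤ P, ‖(Q N).coeff m‖ < 1 := fun N m hm => by
    rw [hQ, if_pos (by omega)]; exact hlow m hm
  have hQP : ∀ N, ‖(Q N).coeff (P + 1)‖ = 1 := fun N => by rw [hQ, if_pos (by omega)]; exact hP
  have hbd : ∀ N (r : C), ‖r‖ < 1 → (Q N).eval r = 0 → ‖r‖ ≤ ρ := fun N r hr h0 => by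
    have h := pow_norm_le_of_root hc0 (hQint N) (P := P + 1) (fun m hm => by
      rw [hQ, if_pos (by omega)]; exact hc ⟨m, hm⟩) (hQP N) hr h0
    exact le_of_pow_le_pow_left₀ (Nat.succ_ne_zero P) hρ0 (h.trans hcρ)
  have hstep : ∀ N (z : C), ‖z‖ < 1 → (Q N).eval z = 0 → ∃ r, (‖r‖ < 1 ∧
      (Q (N + 1)).eval r = 0) ∧ ‖z - r‖ ≤ η ^ N := by
    intro N z hz h0
    obtain ⟨r, hr1, hr0, hr⟩ := exists_root_near P _ (hQint (N + 1)) (hQlow _) (hQP _) z hz
    refine ⟨r, ⟨hr1, hr0⟩, ?_⟩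
    have hsucc : Q (N + 1) = Q N + Polynomial.monomial (N + P + 2)
        (PowerSeries.coeff (N + P + 2) f) := by
      have := PowerSeries.trunc_succ f (N + P + 2)
      simpa [Q, show N + 1 + P + 2 = N + P + 2 + 1 by omega] using this
    rw [hsucc, Polynomial.eval_add, h0, zero_add, Polynomial.eval_monomial] at hr
    refine le_of_pow_le_pow_left₀ (Nat.succ_ne_zero P) (pow_nonneg hη0 N) (hr.trans ?_)
    rw [norm_mul, norm_pow, ← pow_mul, mul_comm N, pow_mul]
    refine (mul_le_of_le_one_left (by positivity) (intSer_coeff hf _)).trans ?_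
    refine (pow_le_pow_left₀ (norm_nonneg z) (hbd N z hz h0) _).trans ?_
    refine (pow_le_pow_of_le_one hρ0 hρ1.le (show N ≤ N + P + 2 by omega)).trans ?_
    exact pow_le_pow_left₀ hρ0 hρη N
  obtain ⟨r₀, hr₀, hr₀0, -⟩ := exists_root_near P _ (hQint 0) (hQlow 0) (hQP 0) 0 (by simp)
  let seq : (N : ℕ) → {z : C // ‖z‖ < 1 ∧ (Q N).eval z = 0} := fun N =>
    Nat.rec ⟨r₀, hr₀, hr₀0⟩ (fun N z =>
      ⟨(hstep N z.1 z.2.1 z.2.2).choose, (hstep N z.1 z.2.1 z.2.2).choose_spec.1⟩) N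
  have hsr : ∀ N, ‖(seq N).1 - (seq (N + 1)).1‖ ≤ η ^ N := fun N =>
    (hstep N (seq N).1 (seq N).2.1 (seq N).2.2).choose_spec.2
  obtain ⟨z, hz⟩ := cauchySeq_tendsto_of_complete
    (cauchySeq_of_le_geometric (f := fun N => (seq N).1) η 1 hη1 fun N => by
      rw [dist_eq_norm, one_mul]; exact hsr N)
  have hzρ : ‖z‖ ≤ ρ := le_of_tendsto' hz.norm fun N => hbd N _ (seq N).2.1 (seq N).2.2
  have hz1 : ‖z‖ < 1 := hzρ.trans_lt hρ1
  refine ⟨z, hz1, ?_⟩
  have hNz : ∀ N, ‖ev1 (seq N).1 f‖ ≤ ρ ^ N := fun N => by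
    have hQser : IntSer (Q N : PowerSeries C) := intSer_iff.2 fun n => by
      rw [Polynomial.coeff_coe]; exact hQint N n
    have h : ev1 (seq N).1 f = ev1 (seq N).1 (f - (Q N : PowerSeries C)) := by
      rw [ev1, ev1, ev_sub hf hQser (small_const (seq N).2.1)]
      have := ev1_coe (Q N) (seq N).1
      rw [ev1, (seq N).2.2] at this
      rw [this, sub_zero]
    rw [h, ev1_eq_tsum]
    refine norm_tsum_le (pow_nonneg hρ0 N) fun n => ?_
    rw [map_sub, Polynomial.coeff_coe, hQ]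
    split_ifs with hn
    · rw [sub_self, zero_mul, norm_zero]; exact pow_nonneg hρ0 N
    · rw [sub_zero, norm_mul, norm_pow]
      refine (mul_le_of_le_one_left (by positivity) (intSer_coeff hf n)).trans ?_
      exact (pow_le_pow_left₀ (norm_nonneg _) (hbd N _ (seq N).2.1 (seq N).2.2) n).trans
        (pow_le_pow_of_le_one hρ0 hρ1.le (by omega))
  have h1 : Tendsto (fun N => ev1 (seq N).1 f) atTop (𝓝 0) :=
    squeeze_zero_norm hNz (tendsto_pow_atTop_nhds_zero_of_lt_one hρ0 hρ1)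
  have h2 : Tendsto (fun N => ev1 (seq N).1 f - ev1 z f) atTop (𝓝 0) :=
    squeeze_zero_norm (fun N => norm_ev_sub_le hf (small_const (seq N).2.1) (small_const hz1)
      (norm_nonneg ((seq N).1 - z)) fun _ => le_rfl)
      (tendsto_zero_iff_norm_tendsto_zero.1 (tendsto_sub_nhds_zero_iff.2 hz))
  exact (tendsto_nhds_unique (tendsto_sub_nhds_zero_iff.1 h2) h1)

theorem exists_roots [IsAlgClosed C] : ∀ (P : ℕ) (f : PowerSeries C), IntSer f →
    (∀ m < P, ‖PowerSeries.coeff m f‖ < 1) → ‖PowerSeries.coeff P f‖ = 1 →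
      (∀ z, ‖z‖ < 1 → ev1 z f = 0 → ev1 z (PowerSeries.derivative C f) ≠ 0) →
        ∃ s : Finset C, s.card = P ∧ ∀ z ∈ s, ‖z‖ < 1 ∧ ev1 z f = 0 := by
  classical
  intro P
  induction P with
  | zero => exact fun f _ _ _ _ => ⟨∅, rfl, by simp⟩
  | succ P ih =>
    intro f hf hlow hP hsimple
    obtain ⟨z₀, h1, h0⟩ := exists_root_series f P hf (fun m hm => hlow m (by omega)) hP
    obtain ⟨g, hg, hglow, hgP, hfg⟩ := exists_quot hf hlow hP h1 h0
    have hg' : IntSer (PowerSeries.derivative C g) := intSer_pderiv () hg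
    have hd : PowerSeries.derivative C f =
        (PowerSeries.X - PowerSeries.C z₀) * PowerSeries.derivative C g + g := by
      rw [hfg, Derivation.leibniz, smul_eq_mul, smul_eq_mul, map_sub, PowerSeries.derivative_X,
        PowerSeries.derivative_C, sub_zero, mul_one]
    have hdev : ∀ z, ‖z‖ < 1 → ev1 z (PowerSeries.derivative C f) =
        (z - z₀) * ev1 z (PowerSeries.derivative C g) + ev1 z g := fun z hz => by
      rw [hd, ev1, ev_add (intSer_mul (intSer_linear h1) hg') hg (small_const hz)]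
      exact congrArg (· + _) ((ev1_mul (intSer_linear h1) hg' hz).trans
        (by rw [ev1_linear h1 hz]))
    have hroot : ∀ z, ‖z‖ < 1 → ev1 z g = 0 → ev1 z f = 0 := fun z hz h => by
      rw [hfg, ev1_mul (intSer_linear h1) hg hz, h, mul_zero]
    have hne : ∀ z, ‖z‖ < 1 → ev1 z g = 0 → z ≠ z₀ := fun z hz h he => by
      apply hsimple z hz (hroot z hz h)
      rw [hdev z hz, h, he, sub_self, zero_mul, add_zero]
    obtain ⟨s, hs, hroots⟩ := ih g hg hglow hgP fun z hz h hh => by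
      apply hsimple z hz (hroot z hz h)
      rw [hdev z hz, h, hh, mul_zero, add_zero]
    refine ⟨insert z₀ s, ?_, fun z hz => ?_⟩
    · rw [Finset.card_insert_of_notMem, hs]
      exact fun hmem => hne z₀ h1 (hroots z₀ hmem).2 rfl
    · rcases Finset.mem_insert.1 hz with rfl | hz
      · exact ⟨h1, h0⟩
      · exact ⟨(hroots z hz).1, hroot z (hroots z hz).1 (hroots z hz).2⟩

/-! ### the inverse of a point -/

theorem exists_padd_inverse (F : FormalGroup C) {a : C} (hF : IntSer F.toPowerSeries)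
    (ha : ‖a‖ < 1) : ∃ b, ‖b‖ ≤ ‖a‖ ∧ padd F a b = 0 := by
  classical
  set G : MvPowerSeries (Fin 2) C := MvPowerSeries.X 1 - F.toPowerSeries
  have hG : IntSer G := intSer_sub (intSer_X 1) hF
  have hG0 : MvPowerSeries.constantCoeff G = 0 := by simp [G, F.zero_constantCoeff]
  have hG1 : MvPowerSeries.coeff (Finsupp.single 1 1) G = 0 := by simp [G, F.lin_coeff_Y]
  have hsm : ∀ b, ‖b‖ ≤ ‖a‖ → Small ![a, b] := fun b hb i => by
    fin_cases i
    · exact ha
    · exact hb.trans_lt ha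
  have hle : ∀ b, ‖b‖ ≤ ‖a‖ → ∀ i, ‖![a, b] i‖ ≤ ‖a‖ := fun b hb i => by
    fin_cases i
    · exact le_rfl
    · exact hb
  set T : C → C := fun b => ev ![a, b] G
  have hT : ∀ b, ‖b‖ ≤ ‖a‖ → ‖T b‖ ≤ ‖a‖ := fun b hb =>
    norm_ev_le hG (hsm b hb) hG0 (norm_nonneg a) (hle b hb)
  have hcon : ∀ b b', ‖b‖ ≤ ‖a‖ → ‖b'‖ ≤ ‖a‖ → ‖T b - T b'‖ ≤ ‖a‖ * ‖b - b'‖ :=
    fun b b' hb hb' => by
      refine norm_ev_sub_le_mul hG (hsm b hb) (hsm b' hb') (norm_nonneg a) ha.le (hle b hb)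
        (hle b' hb') (norm_nonneg _) (fun i => ?_) fun i => ?_
      · fin_cases i <;> simp
      · fin_cases i
        · exact Or.inl rfl
        · exact Or.inr hG1
  have hit : ∀ k, ‖T^[k] 0‖ ≤ ‖a‖ := fun k => by
    induction k with
    | zero => simp
    | succ k ih => rw [Function.iterate_succ_apply']; exact hT _ ih
  have hdiff : ∀ k, ‖T^[k] 0 - T^[k + 1] 0‖ ≤ ‖a‖ ^ k := by
    intro k
    induction k with
    | zero =>
      rw [pow_zero]
      exact (norm_sub_le_max' _ _).trans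
        (max_le ((hit 0).trans ha.le) ((hit 1).trans ha.le))
    | succ k ih =>
      rw [Function.iterate_succ_apply', Function.iterate_succ_apply' T (k + 1), pow_succ']
      exact (hcon _ _ (hit k) (hit (k + 1))).trans (mul_le_mul_of_nonneg_left ih (norm_nonneg a))
  obtain ⟨b, hb⟩ := cauchySeq_tendsto_of_complete
    (cauchySeq_of_le_geometric (f := fun k => T^[k] 0) ‖a‖ 1 ha fun k => by
      rw [dist_eq_norm, one_mul]; exact hdiff k)
  have hba : ‖b‖ ≤ ‖a‖ := le_of_tendsto' hb.norm hit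
  refine ⟨b, hba, ?_⟩
  have hTb : Tendsto (fun k => T^[k + 1] 0) atTop (𝓝 (T b)) := by
    rw [← tendsto_sub_nhds_zero_iff]
    refine squeeze_zero_norm (a := fun k => ‖T^[k] 0 - b‖) (fun k => ?_)
      (tendsto_zero_iff_norm_tendsto_zero.1 (tendsto_sub_nhds_zero_iff.2 hb))
    rw [Function.iterate_succ_apply']
    exact (hcon _ _ (hit k) hba).trans (mul_le_of_le_one_left (norm_nonneg _) ha.le)
  have hfix : T b = b := tendsto_nhds_unique hTb ((tendsto_add_atTop_iff_nat 1).2 hb)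
  have hev : T b = b - padd F a b := by
    simp only [T, G, padd]
    rw [ev_sub (intSer_X 1) hF (hsm b hba), ev_X]
    rfl
  rw [hfix] at hev
  linear_combination hev

end Vale.Agent.P217.Eval
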