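import Vale.Agent.P217.Eval.Basic

/-!
# P217: evaluation of substitutions, partial evaluation, uniqueness of fixed points
-/

noncomputable section

namespace Vale.Agent.P217.Eval

open MvPowerSeries Finset Filter Topology

variable {C : Type*} [NormedField C] [IsUltrametricDist C] {σ τ : Type*}

/-- The product `∏ g_i ^ d_i`. -/
def gpow (g : σ → MvPowerSeries τ C) (d : σ →₀ ℕ) : MvPowerSeries τ C :=
  d.prod fun i k => g i ^ k

omit [IsUltrametricDist C] in
lemma gpow_zero (g : σ → MvPowerSeries τ C) : gpow g 0 = 1 := Finsupp.prod_zero_index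

omit [IsUltrametricDist C] in
lemma gpow_single_add (g : σ → MvPowerSeries τ C) (i : σ) (d : σ →₀ ℕ) :
    gpow g (Finsupp.single i 1 + d) = g i * gpow g d := by
  unfold gpow
  rw [Finsupp.prod_add_index' (fun _ => pow_zero _) (fun _ _ _ => pow_add _ _ _),
    Finsupp.prod_single_index (h := fun i k => g i ^ k) (pow_zero _), pow_one]

lemma intSer_gpow {g : σ → MvPowerSeries τ C} (hg : ∀ i, IntSer (g i)) (d : σ →₀ ℕ) :
    IntSer (gpow g d) := by
  induction d using deg_induction with
  | h0 => rw [gpow_zero]; exact intSer_one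
  | hs i d ih => rw [gpow_single_add]; exact intSer_mul (hg i) ih

omit [IsUltrametricDist C] in
lemma coeff_gpow_eq_zero {g : σ → MvPowerSeries τ C} (hg : ∀ i, constantCoeff (g i) = 0)
    (d : σ →₀ ℕ) : ∀ e, deg e < deg d → coeff e (gpow g d) = 0 := by
  classical
  induction d using deg_induction with
  | h0 => intro e he; rw [deg_zero] at he; omega
  | hs i d ih =>
    intro e he
    rw [deg_add, deg_single] at he
    rw [gpow_single_add, coeff_mul]
    refine Finset.sum_eq_zero fun a ha => ?_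
    rcases Nat.eq_zero_or_pos (deg a.1) with h1 | h1
    · rw [deg_eq_zero h1, coeff_zero_eq_constantCoeff_apply, hg i, zero_mul]
    · have := congrArg deg (Finset.mem_antidiagonal.1 ha)
      rw [deg_add] at this
      rw [ih a.2 (by omega), mul_zero]

variable [CompleteSpace C] [Fintype σ] [Fintype τ]

omit [Fintype σ] in
lemma ev_gpow {g : σ → MvPowerSeries τ C} (hg : ∀ i, IntSer (g i)) {y : τ → C} (hy : Small y)
    (d : σ →₀ ℕ) : ev y (gpow g d) = mon (fun i => ev y (g i)) d := by
  induction d using deg_induction with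
  | h0 =>
    rw [gpow_zero, mon_zero, ← map_one (MvPowerSeries.C (σ := τ) (R := C))]
    exact ev_C y 1
  | hs i d ih => rw [gpow_single_add, ev_mul (hg i) (intSer_gpow hg d) hy, ih, mon_single_add]

omit [IsUltrametricDist C] [CompleteSpace C] [Fintype τ] in
lemma coeff_subst_eq_tsum {g : σ → MvPowerSeries τ C} (hg : ∀ i, constantCoeff (g i) = 0)
    (f : MvPowerSeries σ C) (e : τ →₀ ℕ) :
    coeff e (f.subst g) = ∑' d, coeff d f * coeff e (gpow g d) := by
  have ha := hasSubst_of_constantCoeff_zero hg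
  rw [coeff_subst ha, ← tsum_eq_finsum (L := .unconditional _) (coeff_subst_finite ha f e)]
  rfl

omit [CompleteSpace C] [Fintype τ] in
lemma intSer_subst {g : σ → MvPowerSeries τ C} (hg : ∀ i, IntSer (g i) ∧ constantCoeff (g i) = 0)
    {f : MvPowerSeries σ C} (hf : IntSer f) : IntSer (f.subst g) := fun e => by
  rw [coeff_subst_eq_tsum (fun i => (hg i).2)]
  refine norm_tsum_le zero_le_one fun d => ?_
  rw [norm_mul]
  exact mul_le_one₀ (hf d) (norm_nonneg _) (intSer_gpow (fun i => (hg i).1) d e)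

lemma ev_subst {g : σ → MvPowerSeries τ C} (hg : ∀ i, IntSer (g i) ∧ constantCoeff (g i) = 0)
    {f : MvPowerSeries σ C} (hf : IntSer f) {y : τ → C} (hy : Small y) :
    ev y (f.subst g) = ev (fun i => ev y (g i)) f := by
  obtain ⟨r, hr0, hr1, hr⟩ := exists_radius hy
  let F : (σ →₀ ℕ) → (τ →₀ ℕ) → C := fun d e => coeff d f * coeff e (gpow g d) * mon y e
  have hsum : Summable (Function.uncurry F) := by
    refine summable_of_bound (fun p : (σ →₀ ℕ) × (τ →₀ ℕ) => max (deg p.1) (deg p.2)) (fun N => ?_)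
      hr0 hr1 (B := 1) fun p => ?_
    · exact ((finite_deg_lt N).prod (finite_deg_lt N)).subset fun p (hp : max _ _ < N) =>
        ⟨(le_max_left _ _).trans_lt hp, (le_max_right _ _).trans_lt hp⟩
    · simp only [Function.uncurry, F, one_mul]
      rcases lt_or_ge (deg p.2) (deg p.1) with hlt | hge
      · rw [coeff_gpow_eq_zero (fun i => (hg i).2) p.1 p.2 hlt, mul_zero, zero_mul, norm_zero]
        exact pow_nonneg hr0 _
      · rw [max_eq_right hge, norm_mul, norm_mul]
        refine (mul_le_of_le_one_left (norm_nonneg _) ?_).trans (norm_mon_le hr _)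
        exact mul_le_one₀ (hf _) (norm_nonneg _) (intSer_gpow (fun i => (hg i).1) _ _)
  calc ev y (f.subst g) = ∑' e, ∑' d, F d e := by
        refine tsum_congr fun e => ?_
        rw [coeff_subst_eq_tsum (fun i => (hg i).2), ← tsum_mul_right]
    _ = ∑' d, ∑' e, F d e := hsum.tsum_comm
    _ = ev (fun i => ev y (g i)) f := by
        refine tsum_congr fun d => ?_
        rw [← ev_gpow (fun i => (hg i).1) hy d]
        simp only [F, mul_assoc]
        rw [tsum_mul_left]
        rfl

/-! ### partial evaluation -/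

/-- An exponent on a sum type from its two parts. -/
def pair (d : σ →₀ ℕ) (e : τ →₀ ℕ) : σ ⊕ τ →₀ ℕ :=
  Finsupp.sumFinsuppEquivProdFinsupp.symm (d, e)

omit [IsUltrametricDist C] [CompleteSpace C] in
lemma mon_pair (x : σ → C) (y : τ → C) (d : σ →₀ ℕ) (e : τ →₀ ℕ) :
    mon (Sum.elim x y) (pair d e) = mon x d * mon y e := by
  unfold mon
  rw [Finsupp.prod_fintype _ _ (fun _ => pow_zero _), Finsupp.prod_fintype _ _ (fun _ => pow_zero _),
    Finsupp.prod_fintype _ _ (fun _ => pow_zero _), Fintype.prod_sum_type]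
  rfl

omit [IsUltrametricDist C] [CompleteSpace C] [Fintype σ] [Fintype τ] in
lemma small_elim {x : σ → C} {y : τ → C} (hx : Small x) (hy : Small y) :
    Small (Sum.elim x y) := fun i => by cases i <;> simp [hx _, hy _]

omit [IsUltrametricDist C] [CompleteSpace C] [Fintype τ] in
lemma small_zero : Small (fun _ : τ => (0 : C)) := fun _ => by simp

omit [CompleteSpace C] [Fintype σ] [Fintype τ] in
lemma intSer_evLeft {f : MvPowerSeries (σ ⊕ τ) C} {x : σ → C} (hf : IntSer f) (hx : Small x) :
    IntSer (evLeft x f) := fun e =>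
  norm_tsum_le zero_le_one fun d => by
    rw [norm_mul]; exact mul_le_one₀ (hf _) (norm_nonneg _) (norm_mon_le_one hx d)

lemma ev_evLeft {f : MvPowerSeries (σ ⊕ τ) C} {x : σ → C} (hf : IntSer f) (hx : Small x)
    {y : τ → C} (hy : Small y) : ev y (evLeft x f) = ev (Sum.elim x y) f := by
  let F : (σ →₀ ℕ) → (τ →₀ ℕ) → C := fun d e => coeff (pair d e) f * (mon x d * mon y e)
  have hs := summable_ev hf (small_elim hx hy)
  have hsum : Summable (Function.uncurry F) := by
    refine (hs.comp_injective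
      (Finsupp.sumFinsuppEquivProdFinsupp (α := σ) (β := τ) (γ := ℕ)).symm.injective).congr ?_
    rintro ⟨d, e⟩
    simp only [Function.comp_apply, Function.uncurry, F, ← mon_pair]
    rfl
  calc ev y (evLeft x f) = ∑' e, ∑' d, F d e := by
        refine tsum_congr fun e => ?_
        change (∑' d, coeff (pair d e) f * mon x d) * mon y e = _
        rw [← tsum_mul_right]
        exact tsum_congr fun d => mul_assoc _ _ _
    _ = ∑' d, ∑' e, F d e := hsum.tsum_comm
    _ = ∑' p : (σ →₀ ℕ) × (τ →₀ ℕ), Function.uncurry F p := hsum.tsum_prod.symm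
    _ = ev (Sum.elim x y) f := by
        unfold ev
        rw [← (Finsupp.sumFinsuppEquivProdFinsupp (α := σ) (β := τ) (γ := ℕ)).symm.tsum_eq]
        refine tsum_congr fun p => ?_
        simp only [Function.uncurry, F, ← mon_pair]
        rfl

lemma constantCoeff_evLeft {f : MvPowerSeries (σ ⊕ τ) C} {x : σ → C} (hf : IntSer f)
    (hx : Small x) : constantCoeff (evLeft x f) = ev (Sum.elim x fun _ => 0) f := by
  rw [← ev_evLeft hf hx small_zero, ev_zero]

lemma coeff_single_evLeft {f : MvPowerSeries (σ ⊕ τ) C} {x : σ → C} (hf : IntSer f)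
    (hx : Small x) (j : τ) :
    coeff (Finsupp.single j 1) (evLeft x f) =
      ev (Sum.elim x fun _ => 0) (MvPowerSeries.pderiv C (Sum.inr j) f) := by
  rw [← constantCoeff_evLeft (intSer_pderiv _ hf) hx, ← coeff_zero_eq_constantCoeff_apply]
  refine tsum_congr fun d => ?_
  rw [coeff_pderiv]
  have h0 : (Finsupp.sumFinsuppEquivProdFinsupp.symm (d, (0 : τ →₀ ℕ))) (Sum.inr j) = 0 := rfl
  rw [h0, Nat.cast_zero, zero_add, mul_one]
  congr 3
  ext (i | i)
  · simp
  · simp [Finsupp.single_apply_left Sum.inr_injective]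

/-! ### uniqueness of fixed points -/

omit [Fintype τ] in
lemma norm_ev_sub_le_mul {f : MvPowerSeries σ C} {x y : σ → C} (hf : IntSer f) (hx : Small x)
    (hy : Small y) {R r : ℝ} (hR0 : 0 ≤ R) (hR1 : R ≤ 1) (hxR : ∀ i, ‖x i‖ ≤ R)
    (hyR : ∀ i, ‖y i‖ ≤ R) (hr0 : 0 ≤ r) (h : ∀ i, ‖x i - y i‖ ≤ r)
    (hlin : ∀ i, x i = y i ∨ coeff (Finsupp.single i 1) f = 0) :
    ‖ev x f - ev y f‖ ≤ R * r := by
  unfold ev
  rw [← (summable_ev hf hx).tsum_sub (summable_ev hf hy)]
  refine norm_tsum_le (mul_nonneg hR0 hr0) fun d => ?_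
  rw [← mul_sub, norm_mul]
  by_cases h2 : 2 ≤ deg d
  · refine (mul_le_of_le_one_left (norm_nonneg _) (hf d)).trans ?_
    refine (norm_mon_sub_le hxR hyR hr0 h (deg d - 1) d (by omega)).trans ?_
    refine mul_le_mul_of_nonneg_right ?_ hr0
    exact (pow_le_pow_of_le_one hR0 hR1 (show 1 ≤ deg d - 1 by omega)).trans (pow_one R).le
  · rcases Nat.eq_zero_or_pos (deg d) with h0 | h1
    · rw [deg_eq_zero h0, mon_zero, mon_zero, sub_self, norm_zero, mul_zero]
      exact mul_nonneg hR0 hr0
    · obtain ⟨k, d', rfl, hd'⟩ := exists_single_add (m := 0) (d := d) (by omega)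
      rw [deg_eq_zero hd', add_zero]
      rcases hlin k with hk | hk
      · rw [mon_single, mon_single, hk, sub_self, norm_zero, mul_zero]
        exact mul_nonneg hR0 hr0
      · rw [hk, norm_zero, zero_mul]
        exact mul_nonneg hR0 hr0

lemma fixed_unique {Φ : τ → MvPowerSeries (σ ⊕ τ) C}
    (hΦ : ∀ j, IntSer (Φ j) ∧ ∀ i, coeff (Finsupp.single (Sum.inr i) 1) (Φ j) = 0)
    {w : σ → C} {X Y : τ → C} (hw : Small w) (hX : Small X) (hY : Small Y)
    (hXf : ∀ j, ev (Sum.elim w X) (Φ j) = X j) (hYf : ∀ j, ev (Sum.elim w Y) (Φ j) = Y j) :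
    X = Y := by
  obtain ⟨R₁, hR₁0, hR₁1, hR₁⟩ := exists_radius (small_elim hw hX)
  obtain ⟨R₂, -, hR₂1, hR₂⟩ := exists_radius (small_elim hw hY)
  set R := max R₁ R₂
  have hR0 : 0 ≤ R := hR₁0.trans (le_max_left _ _)
  have hR1 : R < 1 := max_lt hR₁1 hR₂1
  have hxR : ∀ k, ‖Sum.elim w X k‖ ≤ R := fun k => (hR₁ k).trans (le_max_left _ _)
  have hyR : ∀ k, ‖Sum.elim w Y k‖ ≤ R := fun k => (hR₂ k).trans (le_max_right _ _)
  have key : ∀ (m : ℕ) j, ‖X j - Y j‖ ≤ R ^ m := by
    intro m
    induction m with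
    | zero => exact fun j => (norm_sub_le_max' _ _).trans (by simp [(hX j).le, (hY j).le])
    | succ m ih =>
      intro j
      rw [← hXf j, ← hYf j, pow_succ']
      refine norm_ev_sub_le_mul (hΦ j).1 (small_elim hw hX) (small_elim hw hY) hR0 hR1.le hxR hyR
        (pow_nonneg hR0 m) ?_ ?_
      · rintro (k | k)
        · simpa using pow_nonneg hR0 m
        · exact ih k
      · rintro (k | k)
        · exact Or.inl rfl
        · exact Or.inr ((hΦ j).2 k)
  funext j
  have := ge_of_tendsto' (tendsto_pow_atTop_nhds_zero_of_lt_one hR0 hR1) fun m => key m j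
  exact sub_eq_zero.1 (norm_le_zero_iff.1 this)

end Vale.Agent.P217.Eval
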